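import Vale.Agent.P014.H71.MainP
import Vale.Agent.P014.H71.CntP

/-!
# The 2-part of the Birch and Swinnerton-Dyer formula for a positive proportion of the quadratic
twists of the curve 17a2
-/

namespace Vale.Agent.Results.P014.TwoPartBothSigns17

open Vale.Agent.P014
open scoped Classical

/-- `D = 4 k + 1` is squarefree, different from `1`, and `(D / 17)` is the sign of `D`. -/
def Family (k : ℤ) : Prop :=
  Squarefree (4 * k + 1) ∧ k ≠ 0 ∧ jacobiSym (4 * k + 1) 17 = Int.sign (4 * k + 1)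

/-- `E(ℚ)` is finite and `Sha(E/ℚ)` has no element of order `2`. -/
def Minimal (E : WeierstrassCurve ℚ) : Prop :=
  Finite E.toAffine.Point ∧ ∀ s : Sha E, s + s = 0 → s = 0

theorem c₄_tw (k : ℤ) : (tw k).c₄ = 273 * (4 * k + 1) ^ 2 := by
  simp only [tw, WeierstrassCurve.c₄, WeierstrassCurve.b₂, WeierstrassCurve.b₄]
  ring

theorem eq_one_iff (z : ZMod 2) : z = 1 ↔ z ≠ 0 := by revert z; decide

theorem minimal_iff {k : ℤ} (h : Family k) : Minimal (tw k) ↔ (NP (4 * k + 1).natAbs).det = 1 := by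
  rw [eq_one_iff]
  exact (H71.Fam.det_iff h).symm

/-- The 2-part of the Birch and Swinnerton-Dyer formula for the twists by `D = 4k + 1` of the
curve `17a2`, that is for the curves `y² = x (x - D) (x - 17 D)`. -/
theorem result :
    (∀ k : ℤ, Family k →
      (∃ C : WeierstrassCurve.VariableChange ℚ,
        C • tw k = ⟨0, -18 * (4 * k + 1), 0, 17 * (4 * k + 1) ^ 2, 0⟩) ∧
      (tw k).c₄ ^ 3 / (tw k).Δ = 273 ^ 3 / 17 ^ 2 ∧
      GlobalMinimal (tw k) ∧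
      ∃ L : ℂ → ℂ, IsHasseWeil (tw k) L ∧
        (∃ p q : ℤ, Odd q ∧
          ‖L 1‖ = ((p : ℝ) / q) ^ 2 *
            (realPeriod (tw k) * (tamagawaProduct (tw k) : ℝ) / 4 ^ 2) ∧
          (Odd p ↔ Minimal (tw k)) ∧ (Odd p ↔ (NP (4 * k + 1).natAbs).det = 1)) ∧
        (Minimal (tw k) →
          L 1 ≠ 0 ∧ Nat.card (shaPrimary (tw k) 2) = 1 ∧ PPartRankZero (tw k) L 2)) ∧
    (∀ ε : ℝ, 0 < ε → ∃ X₀ : ℕ, ∀ X : ℕ, X₀ ≤ X →
      (1 / 3 - ε) * (Nat.card {k : ℤ // |4 * k + 1| ≤ X ∧ Family k} : ℝ) ≤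
        Nat.card {k : ℤ // |4 * k + 1| ≤ X ∧ Family k ∧ Minimal (tw k)}) ∧
    (∀ X : ℕ, 1000000 ≤ X →
      (X : ℝ) / 101 ≤ Nat.card {k : ℤ // |4 * k + 1| ≤ X ∧ Family k}) ∧
    ∀ t : ℕ, 1 ≤ t → {k : ℤ | Family k ∧ (4 * k + 1).natAbs.primeFactors.card = t ∧
      Minimal (tw k)}.Infinite := by
  refine ⟨fun k hk => ?_, fun ε hε => ?_, fun X hX => ?_, fun t ht => ?_⟩
  · obtain ⟨hC, hmin, L, hL, ⟨p, q, hq, hp, hodd⟩, h⟩ := H71.Fam.main hk
    refine ⟨hC, ?_, hmin, L, hL, ⟨p, q, hq, hp, hodd, ?_⟩, fun hm => h hm.1 hm.2⟩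
    · have hD : (4 * k + 1 : ℚ) ≠ 0 := by
        have h0 : (4 * k + 1 : ℤ) ≠ 0 := by omega
        exact_mod_cast h0
      rw [c₄_tw, H71.tw_Δ]
      field_simp
    · rw [← minimal_iff hk]
      exact hodd
  · obtain ⟨X₀, h⟩ := H71.fam_prop ε hε
    refine ⟨X₀, fun X hX => (h X hX).trans (le_of_eq ?_)⟩
    congr 1
    refine Nat.card_congr (Equiv.subtypeEquivRight fun k => ?_)
    constructor
    · rintro ⟨h1, h2, h3⟩
      exact ⟨h1, h2, (minimal_iff h2).mpr h3⟩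
    · rintro ⟨h1, h2, h3⟩
      exact ⟨h1, h2, (minimal_iff h2).mp h3⟩
  · exact H71.fam_ge X hX
  · exact H71.Fam_infinite ht

end Vale.Agent.Results.P014.TwoPartBothSigns17
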